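import Mathlib

/-!
Brouwer's fixed point theorem, after Milnor and Rogers: a `C¹` retraction of the ball onto the
sphere would make `∫ det (1 + t (DR - 1))`, a polynomial in `t`, equal both the volume of the ball
(small `t`, change of variables) and zero (`t = 1`).
-/

namespace Vale.Agent.Common.Brouwer

open MeasureTheory Metric Set Filter Topology
open scoped RealInnerProductSpace

variable {E : Type*} [NormedAddCommGroup E] [InnerProductSpace ℝ E] [FiniteDimensional ℝ E]

/-- `det (1 + t A)` is a polynomial in `t` of degree at most the dimension. -/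
lemma exists_det_poly (A : E →L[ℝ] E) :
    ∃ p : Polynomial ℝ, p.natDegree ≤ Module.finrank ℝ E ∧
      ∀ t : ℝ, p.eval t = (ContinuousLinearMap.id ℝ E + t • A).det := by
  set b := Module.finBasis ℝ E with hb
  set M := LinearMap.toMatrix b b (A : E →ₗ[ℝ] E) with hM
  refine ⟨Matrix.det ((Polynomial.X : Polynomial ℝ) • M.map Polynomial.C
    + (1 : Matrix _ _ ℝ).map Polynomial.C), ?_, fun t ↦ ?_⟩
  · refine (Polynomial.natDegree_det_X_add_C_le M 1).trans ?_
    simp
  · change Polynomial.eval t _ = LinearMap.det ((ContinuousLinearMap.id ℝ E + t • A : E →L[ℝ] E) :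
      E →ₗ[ℝ] E)
    rw [← Polynomial.coe_evalRingHom, RingHom.map_det, ← LinearMap.det_toMatrix b]
    congr 1
    ext i j
    by_cases hij : i = j <;> simp [hM, LinearMap.toMatrix_apply, hij, add_comm] <;> ring

/-- Values at `n + 1` distinct nodes determine the value at `1`. -/
lemma eval_one_eq_sum {n : ℕ} {v : ℕ → ℝ} (hv : Set.InjOn v (Finset.range (n + 1)))
    {p : Polynomial ℝ} (hp : p.natDegree ≤ n) :
    p.eval 1 = ∑ i ∈ Finset.range (n + 1),
      (Lagrange.basis (Finset.range (n + 1)) v i).eval 1 * p.eval (v i) := by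
  have h : p.degree < ((Finset.range (n + 1)).card : WithBot ℕ) := by
    rw [Finset.card_range]
    refine lt_of_le_of_lt Polynomial.degree_le_natDegree ?_
    exact_mod_cast Nat.lt_succ_of_le hp
  conv_lhs => rw [Lagrange.eq_interpolate hv h, Lagrange.interpolate_apply]
  rw [Polynomial.eval_finsetSum]
  refine Finset.sum_congr rfl fun i _ ↦ ?_
  rw [Polynomial.eval_mul, Polynomial.eval_C, mul_comm]

/-- `1 + s A` has nonnegative determinant for `0 ≤ s` and `s ‖A‖ < 1`. -/
lemma det_nonneg_of_small (A : E →L[ℝ] E) {L t : ℝ} (hA : ‖A‖ ≤ L) (ht : 0 ≤ t)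
    (htL : t * L < 1) : 0 ≤ (ContinuousLinearMap.id ℝ E + t • A).det := by
  by_contra hneg
  rw [not_le] at hneg
  have hc : ContinuousOn (fun s : ℝ ↦ (ContinuousLinearMap.id ℝ E + s • A).det) (Icc 0 t) :=
    (ContinuousLinearMap.continuous_det.comp (by fun_prop)).continuousOn
  have h0 : (0 : ℝ) ≤ (ContinuousLinearMap.id ℝ E + (0 : ℝ) • A).det := by
    simp [ContinuousLinearMap.det]
  obtain ⟨s, ⟨hs0, hs1⟩, hs⟩ := intermediate_value_Icc' ht hc ⟨hneg.le, h0⟩
  have hker : LinearMap.ker ((ContinuousLinearMap.id ℝ E + s • A : E →L[ℝ] E) : E →ₗ[ℝ] E)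
      ≠ ⊥ := LinearMap.det_eq_zero_iff_ker_ne_bot.mp hs
  obtain ⟨v, hv, hv0⟩ := (Submodule.ne_bot_iff _).mp hker
  rw [LinearMap.mem_ker] at hv
  have hv' : v + s • A v = 0 := by simpa using hv
  have hn : ‖v‖ ≤ t * L * ‖v‖ := by
    calc ‖v‖ = ‖-(s • A v)‖ := by rw [← eq_neg_of_add_eq_zero_left hv']
      _ = s * ‖A v‖ := by rw [norm_neg, norm_smul, Real.norm_eq_abs, abs_of_nonneg hs0]
      _ ≤ t * (L * ‖v‖) := mul_le_mul hs1
          ((A.le_opNorm v).trans (mul_le_mul_of_nonneg_right hA (norm_nonneg v)))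
          (norm_nonneg _) ht
      _ = _ := by ring
  have : ‖v‖ ≤ 0 := by nlinarith [norm_nonneg v]
  exact hv0 (norm_le_zero_iff.mp this)

/-- Extending by zero a Lipschitz map on the ball which vanishes on the sphere. -/
lemma extend_lipschitz {g h : E → E} {L : ℝ} (hL : 0 ≤ L)
    (hg : ∀ x ∈ closedBall (0 : E) 1, ∀ y ∈ closedBall (0 : E) 1, ‖g y - g x‖ ≤ L * ‖y - x‖)
    (hg0 : ∀ x, ‖x‖ = 1 → g x = 0) (hin : ∀ x ∈ closedBall (0 : E) 1, h x = g x)
    (hout : ∀ x, x ∉ closedBall (0 : E) 1 → h x = 0) :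
    ∀ x y, ‖h y - h x‖ ≤ L * ‖y - x‖ := by
  have hmix : ∀ x ∈ closedBall (0 : E) 1, ∀ y, y ∉ closedBall (0 : E) 1 →
      ‖g x‖ ≤ L * ‖y - x‖ := by
    intro x hx y hy
    have hc : ContinuousOn (fun s : ℝ ↦ ‖x + s • (y - x)‖) (Icc 0 1) := by fun_prop
    have h0 : ‖x + (0 : ℝ) • (y - x)‖ ≤ 1 := by simpa [mem_closedBall_zero_iff] using hx
    have h1 : 1 ≤ ‖x + (1 : ℝ) • (y - x)‖ := by
      simp only [mem_closedBall_zero_iff, not_le] at hy
      rw [one_smul, add_sub_cancel]
      exact hy.le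
    obtain ⟨s, ⟨hs0, hs1⟩, hs⟩ := intermediate_value_Icc zero_le_one hc ⟨h0, h1⟩
    set z := x + s • (y - x) with hz
    have hzB : z ∈ closedBall (0 : E) 1 := mem_closedBall_zero_iff.mpr (le_of_eq hs)
    have hl := hg z hzB x hx
    rw [hg0 z hs, sub_zero] at hl
    refine hl.trans (mul_le_mul_of_nonneg_left ?_ hL)
    rw [hz, show x - (x + s • (y - x)) = -(s • (y - x)) by abel, norm_neg, norm_smul,
      Real.norm_eq_abs, abs_of_nonneg hs0]
    exact mul_le_of_le_one_left (norm_nonneg _) hs1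
  intro x y
  by_cases hx : x ∈ closedBall (0 : E) 1 <;> by_cases hy : y ∈ closedBall (0 : E) 1
  · rw [hin x hx, hin y hy]; exact hg x hx y hy
  · rw [hout y hy, hin x hx, zero_sub, norm_neg]; exact hmix x hx y hy
  · rw [hout x hx, hin y hy, sub_zero, norm_sub_rev]; exact hmix y hy x hx
  · rw [hout x hx, hout y hy, sub_self, norm_zero]; positivity

/-- A small perturbation `x + t h(x)` of the identity, with `h` vanishing outside the ball, maps
the ball onto itself, injectively. -/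
lemma ball_image {G h : E → E} {L t : ℝ} (hL : 1 ≤ L) (ht : 0 ≤ t) (htL : t * L < 1)
    (hlip : ∀ x y, ‖h y - h x‖ ≤ L * ‖y - x‖)
    (hout : ∀ x, x ∉ closedBall (0 : E) 1 → h x = 0)
    (hR : ∀ x ∈ closedBall (0 : E) 1, ‖x + h x‖ = 1)
    (hG : ∀ x, G x = x + t • h x) :
    G '' closedBall (0 : E) 1 = closedBall (0 : E) 1 ∧ InjOn G (closedBall (0 : E) 1) := by
  have ht1 : t ≤ 1 := by nlinarith
  refine ⟨Subset.antisymm ?_ fun y hy ↦ ?_, ?_⟩
  · rintro _ ⟨x, hx, rfl⟩
    have hxn : ‖x‖ ≤ 1 := by simpa [mem_closedBall_zero_iff] using hx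
    rw [mem_closedBall_zero_iff, hG]
    calc ‖x + t • h x‖ = ‖(1 - t) • x + t • (x + h x)‖ := by
          rw [sub_smul, one_smul, smul_add]; congr 1; abel
      _ ≤ (1 - t) * ‖x‖ + t * ‖x + h x‖ := by
          refine (norm_add_le _ _).trans (le_of_eq ?_)
          rw [norm_smul, norm_smul, Real.norm_eq_abs, Real.norm_eq_abs,
            abs_of_nonneg ht, abs_of_nonneg (by linarith : 0 ≤ 1 - t)]
      _ ≤ _ := by
          rw [hR x hx]
          nlinarith
  · have hc : ContractingWith ⟨t * L, mul_nonneg ht (by linarith)⟩ (fun x ↦ y - t • h x) := by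
      refine ⟨by exact_mod_cast htL, LipschitzWith.of_dist_le_mul fun a b ↦ ?_⟩
      rw [dist_eq_norm, dist_eq_norm, show y - t • h a - (y - t • h b) = t • (h b - h a) by
        rw [smul_sub]; abel, norm_smul, Real.norm_eq_abs, abs_of_nonneg ht, norm_sub_rev a b]
      change t * ‖h b - h a‖ ≤ t * L * ‖b - a‖
      rw [mul_assoc]
      exact mul_le_mul_of_nonneg_left (hlip a b) ht
    have hfix : y - t • h hc.fixedPoint = hc.fixedPoint := hc.fixedPoint_isFixedPt
    set x := hc.fixedPoint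
    by_cases hx : x ∈ closedBall (0 : E) 1
    · exact ⟨x, hx, by rw [hG]; nth_rw 1 [← hfix]; abel⟩
    · rw [hout x hx, smul_zero, sub_zero] at hfix
      exact absurd (hfix ▸ hy) hx
  · intro a _ b _ hab
    rw [hG, hG] at hab
    have e : a - b = t • (h b - h a) := by
      rw [smul_sub]
      calc a - b = (a + t • h a) - (b + t • h a) := by abel
        _ = (b + t • h b) - (b + t • h a) := by rw [hab]
        _ = _ := by abel
    have hn : ‖a - b‖ ≤ t * L * ‖a - b‖ := by
      calc ‖a - b‖ = t * ‖h b - h a‖ := by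
            rw [e, norm_smul, Real.norm_eq_abs, abs_of_nonneg ht]
        _ ≤ t * (L * ‖b - a‖) := mul_le_mul_of_nonneg_left (hlip a b) ht
        _ = _ := by rw [norm_sub_rev b a, mul_assoc]
    have : ‖a - b‖ ≤ 0 := by nlinarith [norm_nonneg (a - b)]
    exact sub_eq_zero.mp (norm_le_zero_iff.mp this)

/-- A map into the unit sphere has singular derivative. -/
lemma det_fderiv_eq_zero {R : E → E} {U : Set E} (hU : IsOpen U) (hS : ∀ x ∈ U, ‖R x‖ = 1)
    {x : E} (hx : x ∈ U) {D : E →L[ℝ] E} (hD : HasFDerivAt R D x) : D.det = 0 := by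
  have hd2 := hD.norm_sq
  have hev : (fun y ↦ ‖R y‖ ^ 2) =ᶠ[𝓝 x] fun _ ↦ (1 : ℝ) := by
    filter_upwards [hU.mem_nhds hx] with y hy
    rw [hS y hy, one_pow]
  have hd0 := ((hasFDerivAt_const (1 : ℝ) x).congr_of_eventuallyEq hev).unique hd2
  by_contra hne
  have hk : LinearMap.ker (D : E →ₗ[ℝ] E) = ⊥ := by
    by_contra hk
    exact hne (LinearMap.det_eq_zero_iff_ker_ne_bot.mpr hk)
  obtain ⟨u, hu⟩ := LinearMap.range_eq_top.mp (LinearMap.ker_eq_bot_iff_range_eq_top.mp hk) (R x)
  have h0 := congrArg (fun φ : E →L[ℝ] ℝ ↦ φ u) hd0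
  have hu' : D u = R x := hu
  simp [hu', hS x hx] at h0

/-- If `∫_B det (1 + t D)` is constant for small `t`, then it has the same value at `t = 1`. -/
lemma integral_det_one [MeasurableSpace E] [BorelSpace E] (μ : Measure E)
    [μ.IsAddHaarMeasure] {D : E → E →L[ℝ] E} {B : Set E} (hB : IsCompact B)
    (hDc : ContinuousOn D B) {L c : ℝ} (hL : 0 ≤ L)
    (hvol : ∀ t : ℝ, 0 ≤ t → t * L < 1 →
      ∫ x in B, (ContinuousLinearMap.id ℝ E + t • D x).det ∂μ = c) :
    ∫ x in B, (ContinuousLinearMap.id ℝ E + (1 : ℝ) • D x).det ∂μ = c := by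
  set n := Module.finrank ℝ E with hn
  set v : ℕ → ℝ := fun i ↦ (i : ℝ) / ((L + 1) * ((n : ℝ) + 1)) with hv
  have hden : 0 < (L + 1) * ((n : ℝ) + 1) := by positivity
  have hvinj : InjOn v (Finset.range (n + 1)) := by
    intro a _ b _ hab
    simp only [hv] at hab
    rw [div_left_inj' hden.ne'] at hab
    exact_mod_cast hab
  have hvsmall : ∀ i ∈ Finset.range (n + 1), 0 ≤ v i ∧ v i * L < 1 := by
    intro i hi
    have hi' : (i : ℝ) ≤ n := by exact_mod_cast Nat.le_of_lt_succ (Finset.mem_range.mp hi)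
    refine ⟨by positivity, ?_⟩
    rw [hv, div_mul_eq_mul_div, div_lt_one hden]
    have := mul_le_mul_of_nonneg_right hi' hL
    nlinarith [Nat.cast_nonneg (α := ℝ) n]
  set w : ℕ → ℝ := fun i ↦ (Lagrange.basis (Finset.range (n + 1)) v i).eval 1 with hw
  have hw1 : ∑ i ∈ Finset.range (n + 1), w i = 1 := by
    have := eval_one_eq_sum hvinj (p := 1) (by simp)
    simpa using this.symm
  have hint : ∀ t : ℝ, IntegrableOn (fun x ↦ (ContinuousLinearMap.id ℝ E + t • D x).det) B μ :=
    fun t ↦ (ContinuousLinearMap.continuous_det.comp_continuousOn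
      (continuousOn_const.add (hDc.const_smul t))).integrableOn_compact hB
  have hpt : ∀ x ∈ B, (ContinuousLinearMap.id ℝ E + (1 : ℝ) • D x).det
      = ∑ i ∈ Finset.range (n + 1),
          w i * (ContinuousLinearMap.id ℝ E + v i • D x).det := by
    intro x _
    obtain ⟨p, hp, hpe⟩ := exists_det_poly (D x)
    have := eval_one_eq_sum hvinj hp
    simpa only [hpe] using this
  rw [setIntegral_congr_fun hB.measurableSet hpt,
    integral_finsetSum _ fun i _ ↦ ((hint (v i)).const_mul (w i))]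
  calc ∑ i ∈ Finset.range (n + 1),
        ∫ x in B, w i * (ContinuousLinearMap.id ℝ E + v i • D x).det ∂μ
      = ∑ i ∈ Finset.range (n + 1), w i * c := by
        refine Finset.sum_congr rfl fun i hi ↦ ?_
        rw [integral_const_mul, hvol _ (hvsmall i hi).1 (hvsmall i hi).2]
    _ = _ := by rw [← Finset.sum_mul, hw1, one_mul]

/-- There is no `C¹` retraction of the closed unit ball onto the unit sphere. -/
theorem no_retraction {R : E → E} {U : Set E} (hU : IsOpen U) (hBU : closedBall (0 : E) 1 ⊆ U)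
    (hR : ContDiffOn ℝ 1 R U) (hS : ∀ x ∈ U, ‖R x‖ = 1) (hid : ∀ x, ‖x‖ = 1 → R x = x) :
    False := by
  classical
  borelize E
  set μ : Measure E := Measure.addHaar with hμ
  set B := closedBall (0 : E) 1 with hB
  have hBc : IsCompact B := isCompact_closedBall _ _
  set D : E → E →L[ℝ] E := fun x ↦ fderiv ℝ R x - ContinuousLinearMap.id ℝ E with hD
  have hRd : ∀ x ∈ U, HasFDerivAt R (fderiv ℝ R x) x := fun x hx ↦
    ((hR.differentiableOn one_ne_zero).differentiableAt (hU.mem_nhds hx)).hasFDerivAt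
  have hDc : ContinuousOn D B :=
    ((hR.continuousOn_fderiv_of_isOpen hU le_rfl).mono hBU).sub continuousOn_const
  obtain ⟨L0, hL0⟩ := hBc.exists_bound_of_continuousOn hDc
  set L := max L0 1 with hL
  have hL1 : 1 ≤ L := le_max_right _ _
  have hDL : ∀ x ∈ B, ‖D x‖ ≤ L := fun x hx ↦ (hL0 x hx).trans (le_max_left _ _)
  have hdw : ∀ x ∈ B, HasFDerivWithinAt (fun y ↦ R y - y) (D x) B x := fun x hx ↦
    ((hRd x (hBU hx)).sub (hasFDerivAt_id x)).hasFDerivWithinAt
  set h : E → E := fun x ↦ if x ∈ B then R x - x else 0 with hh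
  have hhB : ∀ x ∈ B, h x = R x - x := fun x hx ↦ by simp [hh, hx]
  have hhO : ∀ x, x ∉ B → h x = 0 := fun x hx ↦ by simp [hh, hx]
  have hlip := extend_lipschitz (g := fun y ↦ R y - y) (h := h) (le_trans zero_le_one hL1)
    (fun x hx y hy ↦ (convex_closedBall (0 : E) 1).norm_image_sub_le_of_norm_hasFDerivWithin_le
      hdw hDL hx hy) (fun x hx ↦ by rw [hid x hx, sub_self]) hhB hhO
  have hvol : ∀ t : ℝ, 0 ≤ t → t * L < 1 →
      ∫ x in B, (ContinuousLinearMap.id ℝ E + t • D x).det ∂μ = μ.real B := by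
    intro t ht htL
    obtain ⟨himg, hinj⟩ := ball_image (G := fun x ↦ x + t • h x) hL1 ht htL hlip hhO
      (fun x hx ↦ by rw [hhB x hx, add_sub_cancel]; exact hS x (hBU hx)) fun x ↦ rfl
    have hGd : ∀ x ∈ B, HasFDerivWithinAt (fun x ↦ x + t • h x)
        (ContinuousLinearMap.id ℝ E + t • D x) B x := fun x hx ↦
      ((hasFDerivWithinAt_id x B).add ((hdw x hx).const_smul t)).congr
        (fun y hy ↦ by simp [hhB y hy]) (by simp [hhB x hx])
    have := integral_image_eq_integral_abs_det_fderiv_smul μ measurableSet_closedBall hGd hinj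
      (fun _ ↦ (1 : ℝ))
    rw [himg, setIntegral_const, smul_eq_mul, mul_one] at this
    rw [this]
    refine setIntegral_congr_fun measurableSet_closedBall fun x hx ↦ ?_
    rw [smul_eq_mul, mul_one, abs_of_nonneg (det_nonneg_of_small _ (hDL x hx) ht htL)]
  have hmain := integral_det_one μ hBc hDc (le_trans zero_le_one hL1) hvol
  have hzero : ∫ x in B, (ContinuousLinearMap.id ℝ E + (1 : ℝ) • D x).det ∂μ = 0 := by
    refine setIntegral_eq_zero_of_forall_eq_zero fun x hx ↦ ?_
    have e : ContinuousLinearMap.id ℝ E + (1 : ℝ) • D x = fderiv ℝ R x := by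
      ext y
      simp [hD]
    rw [e]
    exact det_fderiv_eq_zero hU hS (hBU hx) (hRd x (hBU hx))
  have hposvol : 0 < μ.real B :=
    ENNReal.toReal_pos (measure_closedBall_pos μ 0 one_pos).ne' hBc.measure_lt_top.ne
  linarith

/-- Brouwer's theorem for the closed unit ball. -/
theorem exists_fixed_ball {f : E → E} (hf : ContinuousOn f (closedBall (0 : E) 1))
    (hmaps : MapsTo f (closedBall (0 : E) 1) (closedBall (0 : E) 1)) :
    ∃ x ∈ closedBall (0 : E) 1, f x = x := by
  by_contra hno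
  push Not at hno
  set B := closedBall (0 : E) 1 with hB
  have hBc : IsCompact B := isCompact_closedBall _ _
  obtain ⟨x0, hx0, hmin⟩ := hBc.exists_isMinOn ⟨0, by simp [hB]⟩
    ((hf.sub continuousOn_id).norm)
  set δ := ‖f x0 - x0‖ with hδ
  have hδ0 : 0 < δ := norm_pos_iff.mpr (sub_ne_zero.mpr (hno x0 hx0))
  have hδle : ∀ x ∈ B, δ ≤ ‖f x - x‖ := fun x hx ↦ hmin hx
  set r : E → E := fun x ↦ (max 1 ‖x‖)⁻¹ • x with hr
  have hrB : ∀ x, r x ∈ B := fun x ↦ by
    rw [hB, mem_closedBall_zero_iff, hr, norm_smul, norm_inv, Real.norm_eq_abs,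
      abs_of_pos (lt_max_of_lt_left one_pos), inv_mul_le_one₀ (lt_max_of_lt_left one_pos)]
    exact le_max_right _ _
  have hrid : ∀ x ∈ B, r x = x := fun x hx ↦ by
    have : ‖x‖ ≤ 1 := by simpa [hB, mem_closedBall_zero_iff] using hx
    simp [hr, max_eq_left this]
  have hrc : Continuous r :=
    (Continuous.inv₀ (continuous_const.max continuous_norm)
      fun x ↦ (lt_max_of_lt_left one_pos).ne').smul continuous_id
  obtain ⟨g, hgs, hg, -⟩ := (hf.comp_continuous hrc hrB).exists_contDiff_approx 1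
    (continuous_const (y := δ / 4)) (fun _ ↦ by positivity)
  have hc : (0 : ℝ) < 1 + δ / 4 := by positivity
  set g1 : E → E := fun x ↦ (1 + δ / 4)⁻¹ • g x with hg1
  have hg1n : ∀ x, ‖g1 x‖ ≤ 1 := by
    intro x
    rw [hg1, norm_smul, norm_inv, Real.norm_eq_abs, abs_of_pos hc, inv_mul_le_one₀ hc]
    have h1 := hg x
    rw [dist_eq_norm] at h1
    have h2 : ‖f (r x)‖ ≤ 1 := by
      simpa [hB, mem_closedBall_zero_iff] using hmaps (hrB x)
    have := norm_sub_norm_le (g x) (f (r x))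
    simp only [Function.comp_apply] at h1
    linarith
  have hfix : ∀ x ∈ B, g1 x ≠ x := by
    intro x hx he
    have h1 := hg x
    simp only [Function.comp_apply, dist_eq_norm] at h1
    rw [hrid x hx] at h1
    have e : g x = (1 + δ / 4) • g1 x := by rw [hg1, smul_smul, mul_inv_cancel₀ hc.ne', one_smul]
    have h2 : ‖g x - g1 x‖ ≤ δ / 4 := by
      rw [e, add_smul, one_smul, add_sub_cancel_left, norm_smul, Real.norm_eq_abs,
        abs_of_pos (by positivity : 0 < δ / 4)]
      exact mul_le_of_le_one_right (by positivity) (hg1n x)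
    have h3 := hδle x hx
    have h4 : ‖f x - x‖ ≤ ‖g x - f x‖ + ‖g x - g1 x‖ := by
      rw [he]
      calc ‖f x - x‖ = ‖(g x - x) - (g x - f x)‖ := by congr 1; abel
        _ ≤ ‖g x - x‖ + ‖g x - f x‖ := norm_sub_le _ _
        _ = _ := add_comm _ _
    linarith
  set u : E → E := fun x ↦ x - g1 x with hu
  have hus : ContDiff ℝ 1 u := contDiff_id.sub (hgs.const_smul _)
  set rad : E → ℝ := fun x ↦ ⟪x, u x⟫ ^ 2 + ‖u x‖ ^ 2 * (1 - ‖x‖ ^ 2) with hrad
  have hrads : ContDiff ℝ 1 rad :=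
    ((contDiff_id.inner ℝ hus).pow 2).add
      ((hus.norm_sq ℝ).mul (contDiff_const.sub (contDiff_id.norm_sq ℝ)))
  set U : Set E := {x | u x ≠ 0} ∩ {x | 0 < rad x} with hU
  set T : E → ℝ := fun x ↦ (-⟪x, u x⟫ + √(rad x)) / ‖u x‖ ^ 2 with hT
  have hsph : ∀ x : E, ‖x‖ = 1 → 0 < ⟪x, u x⟫ := by
    intro x hx
    have hxB : x ∈ B := by simp [hB, hx]
    have hpos : 0 < ‖u x‖ := norm_pos_iff.mpr (sub_ne_zero.mpr (hfix x hxB).symm)
    have e : ‖g1 x‖ ^ 2 = ‖x‖ ^ 2 - 2 * ⟪x, u x⟫ + ‖u x‖ ^ 2 := by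
      have : g1 x = x - u x := by simp [hu]
      rw [this, norm_sub_sq_real]
    have h2 : ‖g1 x‖ ^ 2 ≤ 1 := pow_le_one₀ (norm_nonneg _) (hg1n x)
    rw [hx] at e
    nlinarith
  refine no_retraction (R := fun x ↦ x + T x • u x) (U := U) ?_ ?_ ?_ ?_ ?_
  · exact (isOpen_ne_fun hus.continuous continuous_const).inter
      (isOpen_lt continuous_const hrads.continuous)
  · intro x hx
    have hxn : ‖x‖ ≤ 1 := by simpa [mem_closedBall_zero_iff] using hx
    have hu0 : u x ≠ 0 := sub_ne_zero.mpr (hfix x hx).symm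
    refine ⟨hu0, ?_⟩
    show 0 < rad x
    rcases hxn.lt_or_eq with hlt | heq
    · have h1 : 0 < 1 - ‖x‖ ^ 2 := by nlinarith [norm_nonneg x]
      have h2 : 0 < ‖u x‖ ^ 2 * (1 - ‖x‖ ^ 2) := mul_pos (pow_pos (norm_pos_iff.mpr hu0) 2) h1
      rw [hrad]
      nlinarith [sq_nonneg ⟪x, u x⟫]
    · have := hsph x heq
      simp only [hrad, heq, one_pow, sub_self, mul_zero, add_zero]
      positivity
  · refine contDiffOn_id.add (ContDiffOn.smul ?_ hus.contDiffOn)
    refine ContDiffOn.div (((contDiff_id.inner ℝ hus).neg.contDiffOn).add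
      (hrads.contDiffOn.sqrt fun x hx ↦ (hx.2 : 0 < rad x).ne')) (hus.norm_sq ℝ).contDiffOn
      fun x hx ↦ pow_ne_zero 2 (norm_ne_zero_iff.mpr hx.1)
  · intro x hx
    have hq : ‖u x‖ ^ 2 ≠ 0 := pow_ne_zero 2 (norm_ne_zero_iff.mpr hx.1)
    have hs : √(rad x) ^ 2 = rad x := Real.sq_sqrt (hx.2 : 0 < rad x).le
    have e : ‖x + T x • u x‖ ^ 2 = 1 := by
      rw [norm_add_sq_real, norm_smul, mul_pow, Real.norm_eq_abs, sq_abs, real_inner_smul_right]
      have key : ∀ a b q s : ℝ, q ≠ 0 → s ^ 2 = b ^ 2 + q * (1 - a) →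
          a + 2 * ((-b + s) / q * b) + ((-b + s) / q) ^ 2 * q = 1 := by
        intro a b q s hq hs
        field_simp
        linear_combination hs
      exact key _ _ _ _ hq hs
    exact (sq_eq_one_iff.mp e).resolve_right (by linarith [norm_nonneg (x + T x • u x)])
  · intro x hx
    have hb := hsph x hx
    have : T x = 0 := by
      simp only [hT, hrad, hx, one_pow, sub_self, mul_zero, add_zero, Real.sqrt_sq hb.le,
        neg_add_cancel, zero_div]
    simp [this]

/-- Brouwer's theorem on a compact convex set of an inner product space. -/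
theorem exists_fixed_inner {K : Set E} (hKc : IsCompact K) (hKconv : Convex ℝ K)
    (hKne : K.Nonempty) {f : E → E} (hf : ContinuousOn f K) (hmaps : MapsTo f K K) :
    ∃ x ∈ K, f x = x := by
  choose P hPK hP using exists_norm_eq_iInf_of_complete_convex hKne hKc.isComplete hKconv
  have hobt : ∀ u, ∀ w ∈ K, ⟪u - P u, w - P u⟫ ≤ 0 := fun u ↦
    (norm_eq_iInf_iff_real_inner_le_zero hKconv (hPK u)).mp (hP u)
  have hlip : LipschitzWith 1 P := by
    refine LipschitzWith.of_dist_le_mul fun a b ↦ ?_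
    rw [dist_eq_norm, dist_eq_norm, NNReal.coe_one, one_mul]
    have h1 := hobt a (P b) (hPK b)
    have h2 := hobt b (P a) (hPK a)
    have h3 : ‖P a - P b‖ ^ 2 ≤ ⟪a - b, P a - P b⟫ := by
      rw [← real_inner_self_eq_norm_sq]
      have e1 : ⟪a - P a, P b - P a⟫ = -⟪a - P a, P a - P b⟫ := by
        rw [← inner_neg_right, neg_sub]
      have e2 : ⟪a - b, P a - P b⟫
          = ⟪a - P a, P a - P b⟫ + ⟪P a - P b, P a - P b⟫ - ⟪b - P b, P a - P b⟫ := by
        rw [← inner_add_left, ← inner_sub_left]; congr 1; abel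
      linarith
    have h4 := h3.trans (real_inner_le_norm _ _)
    rcases (norm_nonneg (P a - P b)).eq_or_lt with h | h
    · rw [← h]; exact norm_nonneg _
    · nlinarith
  obtain ⟨ρ, hρ⟩ := hKc.isBounded.subset_closedBall (0 : E)
  set S := max ρ 1 with hS
  have hS0 : 0 < S := lt_max_of_lt_right one_pos
  set F : E → E := fun x ↦ S⁻¹ • f (P (S • x)) with hF
  have hFmaps : MapsTo F (closedBall (0 : E) 1) (closedBall (0 : E) 1) := by
    intro x _
    have := hρ (hmaps (hPK (S • x)))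
    rw [mem_closedBall_zero_iff] at this ⊢
    rw [hF, norm_smul, norm_inv, Real.norm_eq_abs, abs_of_pos hS0, inv_mul_le_one₀ hS0]
    exact this.trans (le_max_left _ _)
  have hFc : Continuous F :=
    (hf.comp_continuous (hlip.continuous.comp (continuous_const_smul S))
      fun x ↦ hPK _).const_smul _
  obtain ⟨x, -, hx⟩ := exists_fixed_ball hFc.continuousOn hFmaps
  have e : S • x = f (P (S • x)) := by
    conv_lhs => rw [← hx]
    rw [hF, smul_smul, mul_inv_cancel₀ hS0.ne', one_smul]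
  have hyK : S • x ∈ K := e ▸ hmaps (hPK _)
  have hPid : P (S • x) = S • x := by
    have h := hobt (S • x) (S • x) hyK
    rw [real_inner_self_eq_norm_sq] at h
    have : ‖S • x - P (S • x)‖ = 0 :=
      pow_eq_zero_iff two_ne_zero |>.mp (le_antisymm h (sq_nonneg _))
    exact (sub_eq_zero.mp (norm_eq_zero.mp this)).symm
  exact ⟨S • x, hyK, (hPid ▸ e).symm⟩

/-- **Brouwer's fixed point theorem**: a continuous self-map of a nonempty compact convex subset
of a finite dimensional real normed space has a fixed point. -/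
theorem exists_fixed {F : Type*} [NormedAddCommGroup F] [NormedSpace ℝ F]
    [FiniteDimensional ℝ F] {K : Set F} (hKc : IsCompact K) (hKconv : Convex ℝ K)
    (hKne : K.Nonempty) {f : F → F} (hf : ContinuousOn f K) (hmaps : MapsTo f K K) :
    ∃ x ∈ K, f x = x := by
  set e : F ≃L[ℝ] EuclideanSpace ℝ (Fin (Module.finrank ℝ F)) := toEuclidean with he
  obtain ⟨y, ⟨x, hx, rfl⟩, hy⟩ := exists_fixed_inner (K := e '' K) (hKc.image e.continuous)
    (hKconv.linear_image (e : F →ₗ[ℝ] EuclideanSpace ℝ (Fin (Module.finrank ℝ F)))) (hKne.image e)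
    (f := fun y ↦ e (f (e.symm y)))
    (e.continuous.comp_continuousOn (hf.comp e.symm.continuous.continuousOn fun y hy ↦ by
      obtain ⟨x, hx, rfl⟩ := hy
      simpa using hx))
    (fun y hy ↦ by
      obtain ⟨x, hx, rfl⟩ := hy
      exact ⟨f x, hmaps hx, by simp⟩)
  refine ⟨x, hx, e.injective ?_⟩
  simpa using hy

end Vale.Agent.Common.Brouwer
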