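import Vale.Agent.Common.Tauberian

/-!
The prime number theorem (and its version for arithmetic progressions), from the
nonvanishing of Dirichlet L-functions on the line re s = 1 and the Wiener-Ikehara theorem.
-/

namespace Vale.Agent.Common.PNT

open Filter Asymptotics Chebyshev ArithmeticFunction
open scoped Topology ArithmeticFunction.vonMangoldt Chebyshev

/-- Prime number theorem in arithmetic progressions, von Mangoldt weighted. -/
theorem tendsto_sum_residueClass_div {q : ℕ} [NeZero q] {a : ZMod q} (ha : IsUnit a) :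
    Tendsto (fun x : ℝ => (∑ n ∈ Finset.Icc 1 ⌊x⌋₊, vonMangoldt.residueClass a n) / x) atTop
      (𝓝 (q.totient : ℝ)⁻¹) := by
  refine Tauberian.wienerIkehara (C := Real.log 4 + 4)
    (G := vonMangoldt.LFunctionResidueClassAux a) (fun n => vonMangoldt.residueClass_nonneg a n)
    (fun x hx => ?_) (vonMangoldt.continuousOn_LFunctionResidueClassAux a) (fun s hs => ?_)
  · refine le_trans ?_ (psi_le_const_mul_self hx)
    rw [psi_eq_sum_Icc]
    refine le_trans (Finset.sum_le_sum fun n _ => vonMangoldt.residueClass_le a n) ?_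
    exact Finset.sum_le_sum_of_subset_of_nonneg (Finset.Icc_subset_Icc_left zero_le_one)
      fun n _ _ => vonMangoldt_nonneg
  · simp [vonMangoldt.eqOn_LFunctionResidueClassAux ha hs]

/-- `ψ x ~ x`. -/
theorem tendsto_psi_div : Tendsto (fun x : ℝ => ψ x / x) atTop (𝓝 1) := by
  have h := tendsto_sum_residueClass_div (q := 1) (a := (1 : ZMod 1)) isUnit_one
  rw [Nat.totient_one, Nat.cast_one, inv_one] at h
  refine h.congr fun x => ?_
  congr 1
  rw [psi_eq_sum_Icc]
  refine (Finset.sum_congr rfl fun n _ => ?_).trans (Finset.sum_subset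
    (Finset.Icc_subset_Icc_left zero_le_one) fun n hn hn' => ?_)
  · simp [vonMangoldt.residueClass, Subsingleton.elim ((n : ZMod 1)) 1]
  · have : n = 0 := by simp only [Finset.mem_Icc] at hn hn'; omega
    simp [this]

/-- `θ x ~ x`. -/
theorem tendsto_theta_div : Tendsto (fun x : ℝ => θ x / x) atTop (𝓝 1) := by
  obtain ⟨C, hC⟩ := psi_sub_theta_le_mul_sqrt
  have hz : Tendsto (fun x : ℝ => (ψ x - θ x) / x) atTop (𝓝 0) := by
    refine squeeze_zero' (g := fun x : ℝ => C * (Real.sqrt x)⁻¹) ?_ ?_ ?_
    · filter_upwards [eventually_gt_atTop 0] with x hx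
      exact div_nonneg (sub_nonneg.2 (theta_le_psi x)) hx.le
    · filter_upwards [eventually_gt_atTop 0] with x hx
      rw [div_le_iff₀ hx]
      calc ψ x - θ x ≤ C * Real.sqrt x := hC x
        _ = C * (Real.sqrt x)⁻¹ * x := by
          have h1 : Real.sqrt x ≠ 0 := (Real.sqrt_pos.2 hx).ne'
          have h2 := Real.mul_self_sqrt hx.le
          field_simp
          rw [sq, h2]
    · simpa using (Real.tendsto_sqrt_atTop.inv_tendsto_atTop).const_mul C
  simpa [sub_div] using tendsto_psi_div.sub hz

/-- The prime number theorem: `π x * log x / x → 1`. -/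
theorem tendsto_primeCounting_mul_log_div :
    Tendsto (fun x : ℝ => (Nat.primeCounting ⌊x⌋₊ : ℝ) * Real.log x / x) atTop (𝓝 1) := by
  have h1 : (fun x : ℝ => x / Real.log x ^ 2) =o[atTop] fun x => x / Real.log x := by
    refine (isLittleO_iff_tendsto' ?_).2 ?_
    · filter_upwards [eventually_gt_atTop 1] with x hx h
      have := Real.log_pos hx
      exfalso
      rcases div_eq_zero_iff.1 h with h | h <;> linarith
    · refine (Real.tendsto_log_atTop.inv_tendsto_atTop).congr' ?_
      filter_upwards [eventually_gt_atTop 1] with x hx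
      have := Real.log_pos hx
      have : x ≠ 0 := by linarith
      simp only [Pi.inv_apply]
      field_simp
  have h2 := (primeCounting_sub_theta_div_log_isBigO.trans_isLittleO h1).tendsto_div_nhds_zero
  have h3 := h2.add tendsto_theta_div
  rw [zero_add] at h3
  refine h3.congr' ?_
  filter_upwards [eventually_gt_atTop 1] with x hx
  have := Real.log_pos hx
  have : x ≠ 0 := by linarith
  field_simp
  ring

/-- `ψ ~ x`. -/
theorem isEquivalent_psi : ψ ~[atTop] (fun x : ℝ => x) := by
  refine (isEquivalent_iff_tendsto_one ?_).2 tendsto_psi_div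
  filter_upwards [eventually_gt_atTop 0] with x hx using hx.ne'

/-- `θ ~ x`. -/
theorem isEquivalent_theta : θ ~[atTop] (fun x : ℝ => x) := by
  refine (isEquivalent_iff_tendsto_one ?_).2 tendsto_theta_div
  filter_upwards [eventually_gt_atTop 0] with x hx using hx.ne'

/-- The prime number theorem: `π x ~ x / log x`. -/
theorem isEquivalent_primeCounting :
    (fun x : ℝ => (Nat.primeCounting ⌊x⌋₊ : ℝ)) ~[atTop] (fun x : ℝ => x / Real.log x) := by
  refine (isEquivalent_iff_tendsto_one ?_).2 (tendsto_primeCounting_mul_log_div.congr' ?_)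
  · filter_upwards [eventually_gt_atTop 1] with x hx
    exact div_ne_zero (by linarith) (Real.log_pos hx).ne'
  · filter_upwards [eventually_gt_atTop 1] with x hx
    simp [div_div_eq_mul_div]

/-- The prime number theorem over the natural numbers. -/
theorem tendsto_primeCounting_nat :
    Tendsto (fun n : ℕ => (Nat.primeCounting n : ℝ) * Real.log n / n) atTop (𝓝 1) :=
  (tendsto_primeCounting_mul_log_div.comp tendsto_natCast_atTop_atTop).congr fun n => by
    simp [Nat.floor_natCast]

/-- Regular variation of the prime counting function. -/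
theorem tendsto_primeCounting_mul_div {c : ℝ} (hc : 0 < c) :
    Tendsto (fun x : ℝ => (Nat.primeCounting ⌊c * x⌋₊ : ℝ) / (Nat.primeCounting ⌊x⌋₊ : ℝ))
      atTop (𝓝 c) := by
  have hP := tendsto_primeCounting_mul_log_div
  have hcx : Tendsto (fun x : ℝ => c * x) atTop atTop := tendsto_id.const_mul_atTop hc
  have hl : Tendsto (fun x : ℝ => Real.log x / Real.log (c * x)) atTop (𝓝 1) := by
    have h : Tendsto (fun x : ℝ => 1 + Real.log c / Real.log x) atTop (𝓝 1) := by
      simpa using ((tendsto_const_nhds (x := Real.log c)).div_atTop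
        Real.tendsto_log_atTop).const_add 1
    have h' := h.inv₀ one_ne_zero
    rw [inv_one] at h'
    refine h'.congr' ?_
    filter_upwards [eventually_gt_atTop 1] with x hx
    have := Real.log_pos hx
    rw [Real.log_mul hc.ne' (by linarith)]
    field_simp
    ring
  have h := (((hP.comp hcx).div hP one_ne_zero).mul hl).const_mul c
  rw [div_one, one_mul, mul_one] at h
  refine h.congr' ?_
  filter_upwards [eventually_gt_atTop 1, hP.eventually (lt_mem_nhds (zero_lt_one' ℝ)),
    hcx.eventually (eventually_gt_atTop 1)] with x hx hp hx'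
  have h1 := (Real.log_pos hx).ne'
  have h2 := (Real.log_pos hx').ne'
  have h3 : (Nat.primeCounting ⌊x⌋₊ : ℝ) ≠ 0 := fun h => by simp [h] at hp
  have : x ≠ 0 := by linarith
  simp only [Function.comp_apply, Pi.div_apply]
  field_simp

end Vale.Agent.Common.PNT
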