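import Mathlib

/-!
A Wiener-Ikehara theorem for nonnegative coefficients with linearly bounded partial sums.
The proof uses the Fejer kernel and the Riemann-Lebesgue lemma.
-/

namespace Vale.Agent.Common.Tauberian

open MeasureTheory Filter Set Complex
open scoped Topology Real

/-- The triangle function. -/
noncomputable def tri (x : ℝ) : ℝ := max 0 (1 - |x|)

theorem continuous_tri : Continuous tri := by unfold tri; fun_prop

theorem tri_eq_zero {x : ℝ} (h : 1 ≤ |x|) : tri x = 0 := max_eq_left (by linarith)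

theorem tri_nonneg (x : ℝ) : 0 ≤ tri x := le_max_left _ _

theorem hasCompactSupport_tri : HasCompactSupport tri :=
  HasCompactSupport.intro (isCompact_Icc (a := (-1 : ℝ)) (b := 1)) fun x hx => tri_eq_zero (by
    by_contra h
    exact hx ⟨by linarith [neg_abs_le x], by linarith [le_abs_self x]⟩)

/-- The Fejer kernel, as the cosine transform of the triangle function. -/
noncomputable def fejer (t : ℝ) : ℝ := ∫ x, tri x * Real.cos (x * t)

theorem fejer_eq_interval (t : ℝ) :
    fejer t = 2 * ∫ x in (0 : ℝ)..1, (1 - x) * Real.cos (x * t) := by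
  have hc : Continuous fun x => tri x * Real.cos (x * t) := continuous_tri.mul (by fun_prop)
  have h1 : fejer t = ∫ x in (-1 : ℝ)..1, tri x * Real.cos (x * t) := by
    rw [fejer, intervalIntegral.integral_of_le (by norm_num : (-1 : ℝ) ≤ 1)]
    refine (setIntegral_eq_integral_of_forall_compl_eq_zero fun x hx => ?_).symm
    rw [tri_eq_zero, zero_mul]
    by_contra h
    exact hx ⟨by linarith [neg_abs_le x], by linarith [le_abs_self x]⟩
  rw [h1, ← intervalIntegral.integral_add_adjacent_intervals (b := 0)
    (hc.intervalIntegrable _ _) (hc.intervalIntegrable _ _)]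
  have h2 : (∫ x in (-1 : ℝ)..0, tri x * Real.cos (x * t)) =
      ∫ x in (0 : ℝ)..1, tri x * Real.cos (x * t) := by
    have h := intervalIntegral.integral_comp_neg (a := (0 : ℝ)) (b := 1)
      (fun x => tri x * Real.cos (x * t))
    simpa [tri] using h.symm
  have h3 : (∫ x in (0 : ℝ)..1, tri x * Real.cos (x * t)) =
      ∫ x in (0 : ℝ)..1, (1 - x) * Real.cos (x * t) := by
    refine intervalIntegral.integral_congr fun x hx => ?_
    rw [Set.uIcc_of_le zero_le_one] at hx
    simp only [tri, abs_of_nonneg hx.1, max_eq_right (show (0 : ℝ) ≤ 1 - x by linarith [hx.2])]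
  rw [h2, h3]
  ring

theorem fejer_eq {t : ℝ} (ht : t ≠ 0) : fejer t = 2 * (1 - Real.cos t) / t ^ 2 := by
  rw [fejer_eq_interval, intervalIntegral.integral_eq_sub_of_hasDerivAt
    (f := fun x => (1 - x) * Real.sin (x * t) / t - Real.cos (x * t) / t ^ 2)]
  · simp; ring
  · intro x _
    have h1 : HasDerivAt (fun x : ℝ => x * t) t x := by simpa using (hasDerivAt_id x).mul_const t
    have h2 := (((hasDerivAt_id x).const_sub 1).mul h1.sin).div_const t
    have h3 := (h1.cos).div_const (t ^ 2)
    refine (h2.sub h3).congr_deriv ?_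
    simp only [id_eq]
    field_simp
    ring
  · exact (Continuous.intervalIntegrable (by fun_prop) _ _)

theorem fejer_zero : fejer 0 = 1 := by
  rw [fejer_eq_interval]
  simp only [mul_zero, Real.cos_zero, mul_one]
  rw [intervalIntegral.integral_sub intervalIntegrable_const intervalIntegral.intervalIntegrable_id,
    integral_id]
  norm_num

theorem fejer_nonneg (t : ℝ) : 0 ≤ fejer t := by
  rcases eq_or_ne t 0 with rfl | ht
  · rw [fejer_zero]; norm_num
  · rw [fejer_eq ht]
    exact div_nonneg (by linarith [Real.cos_le_one t]) (sq_nonneg t)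

theorem fejer_le (t : ℝ) : fejer t ≤ 5 * (1 + t ^ 2)⁻¹ := by
  rcases eq_or_ne t 0 with rfl | ht
  · rw [fejer_zero]; norm_num
  · have h2 : 0 < t ^ 2 := by positivity
    have hc1 := Real.cos_le_one t
    have hc2 := Real.neg_one_le_cos t
    have hc3 := Real.one_sub_sq_div_two_le_cos (x := t)
    rw [fejer_eq ht, ← div_eq_mul_inv, div_le_div_iff₀ h2 (by positivity)]
    nlinarith

theorem continuous_fejer : Continuous fejer := by
  have hc : Continuous (Function.uncurry fun (t x : ℝ) => tri x * Real.cos (x * t)) :=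
    (continuous_tri.comp continuous_snd).mul (by fun_prop)
  refine (continuous_parametric_integral_of_continuous (μ := volume) hc
    (isCompact_Icc (a := (-1 : ℝ)) (b := 1))).congr fun t => ?_
  refine setIntegral_eq_integral_of_forall_compl_eq_zero fun x hx => ?_
  rw [tri_eq_zero, zero_mul]
  by_contra h
  exact hx ⟨by linarith [neg_abs_le x], by linarith [le_abs_self x]⟩

theorem integrable_fejer : Integrable fejer := by
  refine (integrable_inv_one_add_sq.const_mul 5).mono' continuous_fejer.aestronglyMeasurable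
    (Eventually.of_forall fun t => ?_)
  rw [Real.norm_eq_abs, abs_of_nonneg (fejer_nonneg t)]
  exact fejer_le t

theorem integral_fejer_pos : 0 < ∫ t, fejer t := by
  refine (integral_pos_iff_support_of_nonneg fejer_nonneg integrable_fejer).2 ?_
  exact continuous_fejer.isOpen_support.measure_pos volume ⟨0, by simp [fejer_zero]⟩

theorem integrable_tri_exp (c : ℝ) : Integrable fun x : ℝ =>
    (tri x : ℂ) * Complex.exp ((c * x : ℝ) * I) := by
  have hc : HasCompactSupport fun x : ℝ => (tri x : ℂ) * Complex.exp ((c * x : ℝ) * I) :=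
    HasCompactSupport.mul_right (hasCompactSupport_tri.comp_left (g := Complex.ofReal) rfl)
  exact Continuous.integrable_of_hasCompactSupport
    (by have := continuous_tri; fun_prop) hc

theorem re_integral_tri_exp (c : ℝ) :
    (∫ x : ℝ, (tri x : ℂ) * Complex.exp ((c * x : ℝ) * I)).re = fejer c := by
  rw [fejer, ← RCLike.re_to_complex, ← integral_re (integrable_tri_exp c)]
  refine integral_congr_ae (Eventually.of_forall fun x => ?_)
  simp only [RCLike.re_to_complex, Complex.re_ofReal_mul, Complex.exp_ofReal_mul_I_re, mul_comm c x]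

/-- The Laplace transform on the half line. -/
noncomputable def laplace (f : ℝ → ℝ) (z : ℂ) : ℂ :=
  ∫ t in Ioi (0 : ℝ), Complex.exp (-z * t) * (f t : ℂ)

theorem integrableOn_exp_decay {ε : ℝ} (hε : 0 < ε) :
    IntegrableOn (fun t : ℝ => Real.exp (-ε * t)) (Ioi 0) := exp_neg_integrableOn_Ioi 0 hε

variable {f : ℝ → ℝ} {B : ℝ} {g : ℂ → ℂ}

/-- The smoothed function. -/
noncomputable def smooth (f : ℝ → ℝ) (m u : ℝ) : ℝ :=
  ∫ t in Ioi (0 : ℝ), f t * (m * fejer (m * (t - u)))

theorem smooth_damped_eq (hf : Measurable f) (hB : ∀ t, |f t| ≤ B) {ε : ℝ} (hε : 0 < ε) {m : ℝ}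
    (hm : 0 < m) (u : ℝ) :
    ∫ t in Ioi (0 : ℝ), Real.exp (-ε * t) * (f t * (m * fejer (m * (t - u)))) =
      (∫ x : ℝ, (tri (x / m) : ℂ) * Complex.exp ((x * u : ℝ) * I) *
        laplace f (ε + x * I)).re := by
  have hB0 : 0 ≤ B := (abs_nonneg _).trans (hB 0)
  let F : ℝ → ℝ → ℂ := fun x t =>
    ((tri (x / m) : ℂ) * Complex.exp ((x * u : ℝ) * I)) *
      (Complex.exp (-((ε : ℂ) + x * I) * t) * (f t : ℂ))
  have hsc : Integrable fun x : ℝ => tri (x / m) :=
    (continuous_tri.integrable_of_hasCompactSupport hasCompactSupport_tri).comp_div hm.ne'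
  have hmeas : Measurable (Function.uncurry F) := by
    have := continuous_tri.measurable
    simp only [F, Function.uncurry_def]
    fun_prop
  have hnorm : ∀ x t, ‖F x t‖ = tri (x / m) * (Real.exp (-ε * t) * |f t|) := by
    intro x t
    simp [F, Complex.norm_exp, abs_of_nonneg (tri_nonneg _)]
  have hint : Integrable (Function.uncurry F) (volume.prod (volume.restrict (Ioi (0 : ℝ)))) := by
    refine (hsc.mul_prod ((integrableOn_exp_decay hε).const_mul B)).mono'
      hmeas.aestronglyMeasurable (Eventually.of_forall fun z => ?_)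
    rw [Function.uncurry_def]
    simp only [hnorm]
    calc tri (z.1 / m) * (Real.exp (-ε * z.2) * |f z.2|)
        ≤ tri (z.1 / m) * (Real.exp (-ε * z.2) * B) :=
          mul_le_mul_of_nonneg_left (mul_le_mul_of_nonneg_left (hB _) (Real.exp_pos _).le)
            (tri_nonneg _)
      _ = tri (z.1 / m) * (B * Real.exp (-ε * z.2)) := by ring
  have hlhs : ∫ x, (tri (x / m) : ℂ) * Complex.exp ((x * u : ℝ) * I) * laplace f (ε + x * I) =
      ∫ t in Ioi (0 : ℝ), ∫ x, F x t := by
    rw [← integral_integral_swap hint]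
    exact integral_congr_ae (Eventually.of_forall fun x => (integral_const_mul _ _).symm)
  have hint' : Integrable (fun t => ∫ x, F x t) (volume.restrict (Ioi (0 : ℝ))) :=
    hint.integral_prod_right
  have hre := integral_re (𝕜 := ℂ) hint'
  rw [hlhs]
  refine Eq.trans ?_ hre
  refine integral_congr_ae (Eventually.of_forall fun t => ?_)
  have e : ∫ x, F x t = ((Real.exp (-ε * t) * f t : ℝ) : ℂ) *
      ((m : ℂ) * ∫ y : ℝ, (tri y : ℂ) * Complex.exp ((m * (u - t) * y : ℝ) * I)) := by
    have hsub := Measure.integral_comp_div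
      (fun y : ℝ => (tri y : ℂ) * Complex.exp ((m * (u - t) * y : ℝ) * I)) m
    rw [abs_of_pos hm, Complex.real_smul] at hsub
    rw [← hsub, ← integral_const_mul]
    refine integral_congr_ae (Eventually.of_forall fun x => ?_)
    simp only [F]
    have e1 : Complex.exp (-((ε : ℂ) + x * I) * t) * Complex.exp ((x * u : ℝ) * I) =
        (Real.exp (-ε * t) : ℂ) * Complex.exp ((m * (u - t) * (x / m) : ℝ) * I) := by
      rw [Complex.ofReal_exp, ← Complex.exp_add, ← Complex.exp_add]
      congr 1
      have : m * (u - t) * (x / m) = x * (u - t) := by field_simp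
      rw [this]
      push_cast
      ring
    push_cast at e1 ⊢
    linear_combination ((tri (x / m) : ℂ) * (f t : ℂ)) * e1
  simp only [e, RCLike.re_to_complex, Complex.re_ofReal_mul]
  rw [re_integral_tri_exp, show m * (u - t) = -(m * (t - u)) by ring]
  have : fejer (-(m * (t - u))) = fejer (m * (t - u)) := by
    simp [fejer]
  rw [this]
  ring

theorem smooth_eq (hf : Measurable f) (hB : ∀ t, |f t| ≤ B)
    (hg : ContinuousOn g {z | 0 ≤ z.re})
    (hlap : ∀ z : ℂ, 0 < z.re → laplace f z = g z) {m : ℝ} (hm : 0 < m) (u : ℝ) :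
    smooth f m u =
      (∫ x : ℝ, (tri (x / m) : ℂ) * Complex.exp ((x * u : ℝ) * I) * g (x * I)).re := by
  obtain ⟨ε, hεpos, hεle, hεlim⟩ : ∃ ε : ℕ → ℝ, (∀ n, 0 < ε n) ∧ (∀ n, ε n ≤ 1) ∧
      Tendsto ε atTop (𝓝 0) :=
    ⟨fun n => 1 / ((n : ℝ) + 1), fun n => by positivity,
      fun n => (div_le_one (by positivity)).2 (by simp), tendsto_one_div_add_atTop_nhds_zero_nat⟩
  have hKint : Integrable fun t => m * fejer (m * (t - u)) :=
    ((integrable_fejer.comp_mul_left' hm.ne').comp_sub_right u).const_mul m
  have hfej := continuous_fejer.measurable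
  have h1 : Tendsto (fun n => ∫ t in Ioi (0 : ℝ),
      Real.exp (-ε n * t) * (f t * (m * fejer (m * (t - u))))) atTop (𝓝 (smooth f m u)) := by
    refine tendsto_integral_of_dominated_convergence (fun t => B * (m * fejer (m * (t - u))))
      (fun n => ?_) (hKint.const_mul B).restrict (fun n => ?_) (Eventually.of_forall fun t => ?_)
    · exact (by fun_prop : Measurable _).aestronglyMeasurable
    · refine (ae_restrict_mem measurableSet_Ioi).mono fun t ht => ?_
      have hK0 : 0 ≤ m * fejer (m * (t - u)) := mul_nonneg hm.le (fejer_nonneg _)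
      rw [norm_mul, norm_mul, Real.norm_eq_abs (Real.exp _), abs_of_pos (Real.exp_pos _),
        Real.norm_eq_abs, Real.norm_eq_abs, abs_of_nonneg hK0]
      calc Real.exp (-ε n * t) * (|f t| * (m * fejer (m * (t - u))))
          ≤ 1 * (B * (m * fejer (m * (t - u)))) := by
            refine mul_le_mul ?_ (mul_le_mul_of_nonneg_right (hB t) hK0) (by positivity) zero_le_one
            exact Real.exp_le_one_iff.2 (by nlinarith [hεpos n, show (0 : ℝ) < t from ht])
        _ = _ := one_mul _
    · have : Tendsto (fun n => Real.exp (-ε n * t)) atTop (𝓝 1) := by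
        simpa using ((hεlim.neg.mul_const t).rexp)
      simpa using this.mul_const (f t * (m * fejer (m * (t - u))))
  let P : Set ℂ := (fun p : ℝ × ℝ => (p.1 : ℂ) + p.2 * I) '' (Icc 0 1 ×ˢ Icc (-m) m)
  have hP : IsCompact P :=
    ((isCompact_Icc).prod isCompact_Icc).image (by fun_prop)
  have hPsub : P ⊆ {z | 0 ≤ z.re} := by
    rintro _ ⟨⟨a, b⟩, ⟨ha, -⟩, rfl⟩
    simpa using ha.1
  obtain ⟨C, hC⟩ := hP.exists_bound_of_continuousOn (hg.mono hPsub)
  have hline : ∀ e : ℝ, 0 ≤ e → Continuous fun x : ℝ => g ((e : ℂ) + x * I) := fun e he =>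
    hg.comp_continuous (by fun_prop) (fun x => by simpa using he)
  have hsc : Integrable fun x : ℝ => tri (x / m) :=
    (continuous_tri.integrable_of_hasCompactSupport hasCompactSupport_tri).comp_div hm.ne'
  have h2 : Tendsto (fun n => ∫ x : ℝ, (tri (x / m) : ℂ) * Complex.exp ((x * u : ℝ) * I) *
      g ((ε n : ℂ) + x * I)) atTop
      (𝓝 (∫ x : ℝ, (tri (x / m) : ℂ) * Complex.exp ((x * u : ℝ) * I) * g (x * I))) := by
    refine tendsto_integral_of_dominated_convergence (fun x => tri (x / m) * C)
      (fun n => ?_) (hsc.mul_const C) (fun n => Eventually.of_forall fun x => ?_)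
      (Eventually.of_forall fun x => ?_)
    · exact (((Complex.continuous_ofReal.comp (continuous_tri.comp (by fun_prop :
          Continuous fun x : ℝ => x / m))).mul (by fun_prop)).mul
        (hline (ε n) (hεpos n).le)).aestronglyMeasurable
    · rw [norm_mul, norm_mul, Complex.norm_exp_ofReal_mul_I, Complex.norm_real, Real.norm_eq_abs,
        abs_of_nonneg (tri_nonneg _), mul_one]
      rcases le_or_gt m |x| with hx | hx
      · rw [tri_eq_zero (by rw [abs_div, abs_of_pos hm, le_div_iff₀ hm]; linarith)]; simp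
      · exact mul_le_mul_of_nonneg_left (hC _ ⟨(ε n, x), ⟨⟨(hεpos n).le, hεle n⟩,
          ⟨by linarith [neg_abs_le x], by linarith [le_abs_self x]⟩⟩, rfl⟩) (tri_nonneg _)
    · refine Tendsto.const_mul _ ?_
      have hw : Tendsto (fun n => (ε n : ℂ) + x * I) atTop (𝓝[{z | 0 ≤ z.re}] (x * I)) := by
        refine tendsto_nhdsWithin_iff.2 ⟨?_, Eventually.of_forall fun n => by
          simpa using (hεpos n).le⟩
        simpa using ((Complex.continuous_ofReal.tendsto 0).comp hεlim).add_const ((x : ℂ) * I)
      exact (hg _ (by simp)).tendsto.comp hw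
  refine tendsto_nhds_unique h1 (((Complex.continuous_re.tendsto _).comp h2).congr fun n => ?_)
  rw [smooth_damped_eq hf hB (hεpos n) hm u]
  simp only [Function.comp_apply]
  congr 1
  refine integral_congr_ae (Eventually.of_forall fun x => ?_)
  simp only
  rw [hlap _ (by simpa using hεpos n)]

theorem tendsto_smooth_zero (hf : Measurable f) (hB : ∀ t, |f t| ≤ B)
    (hg : ContinuousOn g {z | 0 ≤ z.re})
    (hlap : ∀ z : ℂ, 0 < z.re → laplace f z = g z) {m : ℝ} (hm : 0 < m) :
    Tendsto (smooth f m) atTop (𝓝 0) := by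
  have hRL := Real.tendsto_integral_exp_smul_cocompact
    (fun x : ℝ => (tri (x / m) : ℂ) * g (x * I))
  have hmap : Tendsto (fun u : ℝ => -u / (2 * π)) atTop (cocompact ℝ) := by
    refine Tendsto.mono_right ?_ atBot_le_cocompact
    exact (tendsto_neg_atTop_atBot).atBot_div_const (by positivity)
  have h := (Complex.continuous_re.tendsto 0).comp (hRL.comp hmap)
  rw [Complex.zero_re] at h
  refine h.congr fun u => ?_
  rw [smooth_eq hf hB hg hlap hm u]
  simp only [Function.comp_apply]
  congr 1
  refine integral_congr_ae (Eventually.of_forall fun x => ?_)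
  simp only [Circle.smul_def, Real.fourierChar_apply, smul_eq_mul]
  have : (2 * π * -(x * (-u / (2 * π)))) = x * u := by field_simp
  rw [this]
  ring

theorem integral_kernel (m u : ℝ) (hm : 0 < m) :
    ∫ t, m * fejer (m * (t - u)) = ∫ t, fejer t := by
  rw [integral_const_mul, integral_sub_right_eq_self (fun t => fejer (m * t)) u,
    Measure.integral_comp_mul_left, abs_of_pos (inv_pos.2 hm), smul_eq_mul, ← mul_assoc,
    mul_inv_cancel₀ hm.ne', one_mul]

theorem integral_kernel_Ioc (m u δ : ℝ) (hm : 0 < m) (hδ : 0 ≤ δ) :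
    ∫ t in Ioc (u - δ) (u + δ), m * fejer (m * (t - u)) =
      ∫ t in (-(m * δ))..(m * δ), fejer t := by
  rw [← intervalIntegral.integral_of_le (by linarith)]
  have h := intervalIntegral.integral_comp_mul_sub fejer hm.ne' (m * u) (a := u - δ) (b := u + δ)
  rw [intervalIntegral.integral_const_mul]
  simp only [mul_sub]
  rw [h, smul_eq_mul, ← mul_assoc, mul_inv_cancel₀ hm.ne', one_mul]
  congr 1 <;> ring

theorem tendsto_kernel_Ioi {m : ℝ} (hm : 0 < m) :
    Tendsto (fun u => ∫ t in Ioi (0 : ℝ), m * fejer (m * (t - u))) atTop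
      (𝓝 (∫ t, fejer t)) := by
  have hK : ∀ u, Integrable fun t => m * fejer (m * (t - u)) := fun u =>
    ((integrable_fejer.comp_mul_left' hm.ne').comp_sub_right u).const_mul m
  have hlo : Tendsto (fun u => ∫ t in (-(m * u))..(m * u), fejer t) atTop (𝓝 (∫ t, fejer t)) :=
    intervalIntegral_tendsto_integral integrable_fejer
      (tendsto_neg_atTop_atBot.comp (Tendsto.const_mul_atTop hm tendsto_id))
      (Tendsto.const_mul_atTop hm tendsto_id)
  refine tendsto_of_tendsto_of_tendsto_of_le_of_le' hlo tendsto_const_nhds ?_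
    (Eventually.of_forall fun u => ?_)
  · filter_upwards [eventually_ge_atTop 0] with u hu
    rw [← integral_kernel_Ioc m u u hm hu]
    exact setIntegral_mono_set (hK u).integrableOn
      (Eventually.of_forall fun t => mul_nonneg hm.le (fejer_nonneg _))
      (LE.le.eventuallyLE fun t ht => show (0 : ℝ) < t by linarith [ht.1])
  · rw [← integral_kernel m u hm]
    exact setIntegral_le_integral (hK u)
      (Eventually.of_forall fun t => mul_nonneg hm.le (fejer_nonneg _))

/-- Tauberian step: a bounded slowly decreasing function whose Laplace transform differs from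
`l / z` by a function continuous up to the imaginary axis tends to `l`. -/
theorem tendsto_of_laplace {F : ℝ → ℝ} {l C : ℝ} (hF : Measurable F) (h0 : ∀ t, 0 ≤ F t)
    (hC : ∀ t, F t ≤ C) (hslow : ∀ s t, s ≤ t → Real.exp (-(t - s)) * F s ≤ F t)
    (hg : ContinuousOn g {z | 0 ≤ z.re})
    (hlap : ∀ z : ℂ, 0 < z.re → laplace (fun t => F t - l) z = g z) :
    Tendsto F atTop (𝓝 l) := by
  set J := ∫ t, fejer t
  have hJ : 0 < J := integral_fejer_pos
  have hM : ∀ m, 0 < m →
      Tendsto (fun u => ∫ t in Ioi (0 : ℝ), F t * (m * fejer (m * (t - u)))) atTop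
        (𝓝 (l * J)) := by
    intro m hm
    have h1 := tendsto_smooth_zero (f := fun t => F t - l) (B := C + |l|) (hF.sub_const l)
      (fun t => (abs_sub _ _).trans (by rw [abs_of_nonneg (h0 t)]; linarith [hC t])) hg hlap hm
    have h2 := h1.add ((tendsto_kernel_Ioi hm).const_mul l)
    rw [zero_add] at h2
    refine h2.congr fun u => ?_
    have hK : Integrable fun t => m * fejer (m * (t - u)) :=
      ((integrable_fejer.comp_mul_left' hm.ne').comp_sub_right u).const_mul m
    have hfej := continuous_fejer.measurable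
    have hFK : Integrable fun t => F t * (m * fejer (m * (t - u))) :=
      (hK.const_mul C).mono' (by fun_prop : Measurable _).aestronglyMeasurable
        (Eventually.of_forall fun t => by
          have hK0 : 0 ≤ m * fejer (m * (t - u)) := mul_nonneg hm.le (fejer_nonneg _)
          rw [Real.norm_eq_abs, abs_mul, abs_of_nonneg (h0 t), abs_of_nonneg hK0]
          exact mul_le_mul_of_nonneg_right (hC t) hK0)
    simp only [smooth, sub_mul]
    rw [integral_sub hFK.restrict (hK.const_mul l).restrict, integral_const_mul]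
    ring
  rw [Metric.tendsto_atTop]
  intro η hη
  -- choose the width and the scale
  have hJR : Tendsto (fun R => ∫ t in (-R)..R, fejer t) atTop (𝓝 J) :=
    intervalIntegral_tendsto_integral integrable_fejer tendsto_neg_atTop_atBot tendsto_id
  obtain ⟨δ, hδ, hd1, hd2⟩ : ∃ δ : ℝ, 0 < δ ∧ Real.exp (2 * δ) * l < l + η / 2 ∧
      l - η / 2 < Real.exp (-(2 * δ)) * l := by
    have e1 : Tendsto (fun δ : ℝ => Real.exp (2 * δ) * l) (𝓝[>] 0) (𝓝 l) := by
      refine Tendsto.mono_left ?_ nhdsWithin_le_nhds
      simpa using ((continuous_const_mul (2 : ℝ)).rexp.mul_const l).tendsto 0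
    have e2 : Tendsto (fun δ : ℝ => Real.exp (-(2 * δ)) * l) (𝓝[>] 0) (𝓝 l) := by
      refine Tendsto.mono_left ?_ nhdsWithin_le_nhds
      simpa using (((continuous_const_mul (2 : ℝ)).neg).rexp.mul_const l).tendsto 0
    obtain ⟨δ, ⟨h1, h2⟩, h3⟩ := (((e1.eventually (gt_mem_nhds (by linarith : l < l + η / 2))).and
      (e2.eventually (lt_mem_nhds (by linarith : l - η / 2 < l)))).and
      self_mem_nhdsWithin).exists
    exact ⟨δ, h3, h1, h2⟩
  obtain ⟨R, hR, hR1, hR2⟩ : ∃ R : ℝ, 0 < R ∧
      Real.exp (2 * δ) * (l * J) < (l + η) * (∫ t in (-R)..R, fejer t) ∧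
      (l - η) * J < Real.exp (-(2 * δ)) * (l * J - C * (J - ∫ t in (-R)..R, fejer t)) := by
    have e1 : Tendsto (fun R => (l + η) * ∫ t in (-R)..R, fejer t) atTop (𝓝 ((l + η) * J)) :=
      hJR.const_mul _
    have e2 : Tendsto (fun R => Real.exp (-(2 * δ)) *
        (l * J - C * (J - ∫ t in (-R)..R, fejer t))) atTop
        (𝓝 (Real.exp (-(2 * δ)) * (l * J))) := by
      simpa using ((((tendsto_const_nhds (x := J)).sub hJR).const_mul C).const_sub
        (l * J)).const_mul (Real.exp (-(2 * δ)))
    have l1 : Real.exp (2 * δ) * (l * J) < (l + η) * J := by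
      rw [← mul_assoc]; exact mul_lt_mul_of_pos_right (by linarith) hJ
    have l2 : (l - η) * J < Real.exp (-(2 * δ)) * (l * J) := by
      rw [← mul_assoc]; exact mul_lt_mul_of_pos_right (by linarith) hJ
    obtain ⟨R, ⟨h1, h2⟩, h3⟩ := (((e1.eventually (lt_mem_nhds l1)).and
      (e2.eventually (lt_mem_nhds l2))).and (eventually_gt_atTop 0)).exists
    exact ⟨R, h3, h1, h2⟩
  set m := R / δ with hmdef
  have hm : 0 < m := div_pos hR hδ
  have hmd : m * δ = R := by rw [hmdef]; field_simp
  set JR := ∫ t in (-R)..R, fejer t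
  have hJR0 : 0 ≤ JR :=
    intervalIntegral.integral_nonneg (by linarith) fun t _ => fejer_nonneg t
  -- the two one-sided bounds
  have bounds : ∀ u, δ ≤ u →
      Real.exp (-(2 * δ)) * F (u - δ) * JR ≤
          ∫ t in Ioi (0 : ℝ), F t * (m * fejer (m * (t - u))) ∧
      ∫ t in Ioi (0 : ℝ), F t * (m * fejer (m * (t - u))) ≤
          Real.exp (2 * δ) * F (u + δ) * J + C * (J - JR) := by
    intro u hu
    have hC0 : 0 ≤ C := (h0 0).trans (hC 0)
    have hK : Integrable fun t => m * fejer (m * (t - u)) :=
      ((integrable_fejer.comp_mul_left' hm.ne').comp_sub_right u).const_mul m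
    have hK0 : ∀ t, 0 ≤ m * fejer (m * (t - u)) := fun t => mul_nonneg hm.le (fejer_nonneg _)
    have hfej := continuous_fejer.measurable
    have hFK : Integrable fun t => F t * (m * fejer (m * (t - u))) :=
      (hK.const_mul C).mono' (by fun_prop : Measurable _).aestronglyMeasurable
        (Eventually.of_forall fun t => by
          rw [Real.norm_eq_abs, abs_mul, abs_of_nonneg (h0 t), abs_of_nonneg (hK0 t)]
          exact mul_le_mul_of_nonneg_right (hC t) (hK0 t))
    have hin : ∫ t in Ioc (u - δ) (u + δ), m * fejer (m * (t - u)) = JR := by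
      rw [integral_kernel_Ioc m u δ hm hδ.le, hmd]
    constructor
    · rw [← hin, ← integral_const_mul]
      refine (setIntegral_mono_on (hK.const_mul _).integrableOn hFK.integrableOn
        measurableSet_Ioc fun t ht => mul_le_mul_of_nonneg_right ?_ (hK0 t)).trans
        (setIntegral_mono_set hFK.integrableOn
          (Eventually.of_forall fun t => mul_nonneg (h0 t) (hK0 t))
          (LE.le.eventuallyLE fun t ht => show (0 : ℝ) < t by linarith [ht.1]))
      exact le_trans (mul_le_mul_of_nonneg_right (Real.exp_le_exp.2 (by linarith [ht.2])) (h0 _))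
        (hslow _ _ ht.1.le)
    · refine (setIntegral_le_integral hFK
        (Eventually.of_forall fun t => mul_nonneg (h0 t) (hK0 t))).trans ?_
      rw [← integral_add_compl measurableSet_Ioc hFK (s := Ioc (u - δ) (u + δ))]
      have hout : ∫ t in (Ioc (u - δ) (u + δ))ᶜ, m * fejer (m * (t - u)) = J - JR := by
        rw [setIntegral_compl measurableSet_Ioc hK, hin, integral_kernel m u hm]
      refine add_le_add ?_ ?_
      · calc ∫ t in Ioc (u - δ) (u + δ), F t * (m * fejer (m * (t - u)))
            ≤ ∫ t in Ioc (u - δ) (u + δ),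
                (Real.exp (2 * δ) * F (u + δ)) * (m * fejer (m * (t - u))) :=
              setIntegral_mono_on hFK.integrableOn (hK.const_mul _).integrableOn measurableSet_Ioc
                fun t ht => mul_le_mul_of_nonneg_right (by
                  have h := hslow t (u + δ) ht.2
                  rw [Real.exp_neg, inv_mul_le_iff₀ (Real.exp_pos _)] at h
                  exact h.trans (mul_le_mul_of_nonneg_right
                    (Real.exp_le_exp.2 (by linarith [ht.1])) (h0 _))) (hK0 t)
          _ = Real.exp (2 * δ) * F (u + δ) * JR := by rw [integral_const_mul, hin]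
          _ ≤ Real.exp (2 * δ) * F (u + δ) * J := by
              refine mul_le_mul_of_nonneg_left ?_ (mul_nonneg (Real.exp_pos _).le (h0 _))
              rw [← hin]
              exact (setIntegral_le_integral hK (Eventually.of_forall hK0)).trans_eq
                (integral_kernel m u hm)
      · rw [← hout, ← integral_const_mul]
        exact setIntegral_mono_on hFK.integrableOn (hK.const_mul C).integrableOn
          measurableSet_Ioc.compl fun t _ => mul_le_mul_of_nonneg_right (hC t) (hK0 t)
  -- pass to the limit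
  have t1 : ∀ᶠ u in atTop, Real.exp (2 * δ) * (∫ t in Ioi (0 : ℝ),
      F t * (m * fejer (m * (t - u)))) < (l + η) * JR :=
    ((hM m hm).const_mul _).eventually (gt_mem_nhds hR1)
  have t2 : ∀ᶠ u in atTop, (l - η) * J < Real.exp (-(2 * δ)) * ((∫ t in Ioi (0 : ℝ),
      F t * (m * fejer (m * (t - u)))) - C * (J - JR)) :=
    (((hM m hm).sub_const _).const_mul _).eventually (lt_mem_nhds hR2)
  obtain ⟨U, hU⟩ := eventually_atTop.1 ((t1.and t2).and (eventually_ge_atTop δ))
  refine ⟨U + δ, fun v hv => ?_⟩
  obtain ⟨⟨a1, -⟩, hv1⟩ := hU (v + δ) (by linarith)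
  obtain ⟨⟨-, a2⟩, hv2⟩ := hU (v - δ) (by linarith)
  have b1 := (bounds (v + δ) hv1).1
  have b2 := (bounds (v - δ) hv2).2
  rw [add_sub_cancel_right] at b1
  rw [sub_add_cancel] at b2
  have ee : Real.exp (2 * δ) * Real.exp (-(2 * δ)) = 1 := by
    rw [← Real.exp_add, add_neg_cancel, Real.exp_zero]
  rw [Real.dist_eq, abs_sub_lt_iff]
  constructor
  · have h' : F v * JR < (l + η) * JR := by
      refine lt_of_le_of_lt ?_ a1
      calc F v * JR = Real.exp (2 * δ) * (Real.exp (-(2 * δ)) * F v * JR) := by
            linear_combination (-(F v * JR)) * ee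
        _ ≤ _ := mul_le_mul_of_nonneg_left b1 (Real.exp_pos _).le
    linarith [lt_of_mul_lt_mul_right h' hJR0]
  · have h' : (l - η) * J < F v * J := by
      refine lt_of_lt_of_le a2 ?_
      calc Real.exp (-(2 * δ)) * (_ - C * (J - JR))
          ≤ Real.exp (-(2 * δ)) * (Real.exp (2 * δ) * F v * J) :=
            mul_le_mul_of_nonneg_left (sub_le_iff_le_add.2 b2) (Real.exp_pos _).le
        _ = F v * J := by linear_combination (F v * J) * ee
    linarith [lt_of_mul_lt_mul_right h' hJ.le]

/-- Wiener-Ikehara: nonnegative coefficients with linearly bounded partial sums, whose L-series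
minus `l / (s - 1)` extends continuously to `1 ≤ re s`, have partial sums asymptotic to `l * x`. -/
theorem wienerIkehara {a : ℕ → ℝ} {l C : ℝ} {G : ℂ → ℂ} (ha : ∀ n, 0 ≤ a n)
    (hC : ∀ x : ℝ, 0 ≤ x → ∑ k ∈ Finset.Icc 1 ⌊x⌋₊, a k ≤ C * x)
    (hG : ContinuousOn G {s | 1 ≤ s.re})
    (hGeq : ∀ s : ℂ, 1 < s.re → G s = LSeries (fun n => (a n : ℂ)) s - l / (s - 1)) :
    Tendsto (fun x : ℝ => (∑ k ∈ Finset.Icc 1 ⌊x⌋₊, a k) / x) atTop (𝓝 l) := by
  set S : ℝ → ℝ := fun x => ∑ k ∈ Finset.Icc 1 ⌊x⌋₊, a k with hS
  have hS0 : ∀ x, 0 ≤ S x := fun x => Finset.sum_nonneg fun k _ => ha k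
  have hSmono : Monotone S := fun x y h => Finset.sum_le_sum_of_subset_of_nonneg
    (Finset.Icc_subset_Icc_right (Nat.floor_le_floor h)) fun k _ _ => ha k
  let F : ℝ → ℝ := fun t => S (Real.exp t) * Real.exp (-t)
  have hexp : ∀ t : ℝ, Real.exp t * Real.exp (-t) = 1 := fun t => by
    rw [← Real.exp_add, add_neg_cancel, Real.exp_zero]
  have hFm : Measurable F := (hSmono.measurable.comp Real.measurable_exp).mul (by fun_prop)
  have hFC : ∀ t, F t ≤ C := fun t => by
    calc F t ≤ C * Real.exp t * Real.exp (-t) :=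
          mul_le_mul_of_nonneg_right (hC _ (Real.exp_pos t).le) (Real.exp_pos _).le
      _ = C := by rw [mul_assoc, hexp, mul_one]
  have hslow : ∀ s t, s ≤ t → Real.exp (-(t - s)) * F s ≤ F t := fun s t h => by
    have e : Real.exp (-(t - s)) * Real.exp (-s) = Real.exp (-t) := by
      rw [← Real.exp_add]; ring_nf
    calc Real.exp (-(t - s)) * F s = S (Real.exp s) * Real.exp (-t) := by
          rw [← e]; simp only [F]; ring
      _ ≤ F t := mul_le_mul_of_nonneg_right (hSmono (Real.exp_le_exp.2 h)) (Real.exp_pos _).le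
  let g : ℂ → ℂ := fun z => (G (z + 1) - l) / (z + 1)
  have hg : ContinuousOn g {z | 0 ≤ z.re} := by
    refine ((hG.comp (by fun_prop : Continuous fun z : ℂ => z + 1).continuousOn fun z hz => ?_).sub
      continuousOn_const).div (by fun_prop) fun z hz h => ?_
    · simpa using hz
    · have := congrArg Complex.re h
      simp at this hz
      linarith
  have hlap : ∀ z : ℂ, 0 < z.re → laplace (fun t => F t - l) z = g z := by
    intro z hz
    have hz1 : (1 : ℝ) < (z + 1).re := by simp [hz]
    have hO : (fun n : ℕ => ∑ k ∈ Finset.Icc 1 n, a k) =O[atTop] fun n => (n : ℝ) ^ (1 : ℝ) := by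
      refine Asymptotics.IsBigO.of_bound C (Eventually.of_forall fun n => ?_)
      rw [Real.rpow_one, Real.norm_eq_abs, Real.norm_eq_abs, Nat.abs_cast,
        abs_of_nonneg (Finset.sum_nonneg fun k _ => ha k)]
      simpa using hC n n.cast_nonneg
    have hL := LSeries_eq_mul_integral_of_nonneg a zero_le_one hz1 hO ha
    have himg : Real.exp '' Ioi (0 : ℝ) = Ioi (1 : ℝ) := by
      ext x
      constructor
      · rintro ⟨t, ht, rfl⟩
        exact Real.one_lt_exp_iff.2 ht
      · intro hx
        exact ⟨Real.log x, Real.log_pos hx, Real.exp_log (zero_lt_one.trans hx)⟩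
    have hsub := integral_image_eq_integral_abs_deriv_smul (f := Real.exp) measurableSet_Ioi
      (fun t _ => (Real.hasDerivAt_exp t).hasDerivWithinAt) Real.exp_injective.injOn
      (fun x : ℝ => (∑ k ∈ Finset.Icc 1 ⌊x⌋₊, (a k : ℂ)) * (x : ℂ) ^ (-(z + 1 + 1)))
      (s := Ioi (0 : ℝ))
    have key : ∫ t in Ioi (0 : ℝ), Complex.exp (-z * t) * (F t : ℂ) =
        LSeries (fun n => (a n : ℂ)) (z + 1) / (z + 1) := by
      rw [hL, mul_div_cancel_left₀ _ (fun h => by
        have := congrArg Complex.re h
        simp at this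
        linarith), ← himg, hsub]
      refine integral_congr_ae (Eventually.of_forall fun t => ?_)
      simp only [F, S, abs_of_pos (Real.exp_pos t), Complex.real_smul]
      have h1 : ((Real.exp t : ℝ) : ℂ) ≠ 0 := by exact_mod_cast (Real.exp_pos t).ne'
      rw [Complex.cpow_def_of_ne_zero h1, ← Complex.ofReal_log (Real.exp_pos t).le, Real.log_exp]
      push_cast
      have h2 : Complex.exp (-z * t) * Complex.exp (-(t : ℂ)) =
          Complex.exp t * Complex.exp ((t : ℂ) * -(z + 1 + 1)) := by
        rw [← Complex.exp_add, ← Complex.exp_add]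
        congr 1
        ring
      linear_combination (∑ k ∈ Finset.Icc 1 ⌊Real.exp t⌋₊, (a k : ℂ)) * h2
    have hdec : IntegrableOn (fun t : ℝ => Complex.exp (-z * t)) (Ioi 0) := by
      simpa using integrableOn_exp_mul_complex_Ioi (a := -z) (by simpa using hz) 0
    have hFint : IntegrableOn (fun t : ℝ => Complex.exp (-z * t) * (F t : ℂ)) (Ioi 0) :=
      Integrable.mul_bdd (c := |C|) hdec
        (Complex.continuous_ofReal.measurable.comp hFm).aestronglyMeasurable
        (Eventually.of_forall fun t => by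
          rw [Complex.norm_real, Real.norm_eq_abs,
            abs_of_nonneg (mul_nonneg (hS0 _) (Real.exp_pos _).le)]
          exact (hFC t).trans (le_abs_self C))
    have hlint : IntegrableOn (fun t : ℝ => Complex.exp (-z * t) * (l : ℂ)) (Ioi 0) :=
      hdec.mul_const _
    simp only [laplace, Complex.ofReal_sub, mul_sub]
    rw [integral_sub hFint hlint, key, integral_mul_const,
      integral_exp_mul_complex_Ioi (a := -z) (by simpa using hz) 0]
    have hz0 : z ≠ 0 := fun h => by simp [h] at hz
    have hz0' : z + 1 ≠ 0 := fun h => by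
      have := congrArg Complex.re h
      simp at this
      linarith
    simp only [g, hGeq _ hz1, add_sub_cancel_right, Complex.ofReal_zero, mul_zero, Complex.exp_zero]
    field_simp
    ring
  have hF := tendsto_of_laplace hFm (fun t => mul_nonneg (hS0 _) (Real.exp_pos _).le) hFC hslow
    hg hlap
  refine (hF.comp Real.tendsto_log_atTop).congr' ?_
  filter_upwards [eventually_gt_atTop 0] with x hx
  simp [F, S, Real.exp_log hx, Real.exp_neg, div_eq_mul_inv]

end Vale.Agent.Common.Tauberian
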